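import Vale.Agent.P144S.M.Face

/-!
Masses of the cut-off `H`-function on the graph of the cells of `P`.
-/

namespace Vale.Agent.P144S.M

open Finset Vale.Agent.P144 Vale.Agent.P144S Vale.Agent.P144S.H
open Vale.Agent.P144.AL (lap cnr quad_nonneg)
open Vale.Agent.P144.H170 (bx mem_bx bx_mono lap_AL)
open Vale.Agent.P144.H135 (CT CT_zero CT_le_one cutoff)
open Vale.Agent.P144G (Exg)

theorem shift_le {w : Site → ℝ} (hw : ∀ x, 0 ≤ w x) {S : Finset Site} (hS : ∀ x ∉ S, w x = 0)
    (T : Finset Site) {g : Site → Site} (hg : Function.Injective g) :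
    ∑ x ∈ T, w (g x) ≤ ∑ x ∈ S, w x := by
  classical
  rw [← sum_image (f := w) fun x _ y _ hxy => hg hxy]
  calc _ ≤ ∑ x ∈ T.image g ∪ S, w x :=
        sum_le_sum_of_subset_of_nonneg subset_union_left fun x _ _ => hw x
    _ = _ := (sum_subset subset_union_right fun x _ hx => hS x hx).symm

theorem hat_in {P : Finset Site} (Hs : Site → ℝ) {x : Site} (h1 : x ∈ P)
    (h2 : ((x.1 - 1, x.2 - 1) : Site) ∈ P) : hat P Hs x = Hs x := by
  obtain ⟨i, j⟩ := x
  unfold hat
  simp only at h2 ⊢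
  rw [ih_in (Or.inl h1), ih_in (Or.inr h2), iv_in (Or.inl h1), iv_in (Or.inr h2)]
  ring

theorem cutoff' {c : Site} {n : ℕ} (hn : 0 < n) {h : Site → ℝ} {L M : ℝ} (hL0 : 0 ≤ L) {K : ℕ}
    (h0 : ∀ x ∉ box K, h x = 0) (hL : ∀ x ∈ bx c (8 * n), x ∉ bx c (n - 1) → |h x| ≤ L)
    (hsub : ∀ x ∈ bx c (8 * n), x ∉ bx c n → 0 ≤ lap h x)
    (hneg : ∑ x ∈ (box (K + 1)).filter (fun x => x ∉ bx c n), max 0 (-lap h x) ≤ M) :
    (∑ x ∈ box (K + 1), (1 - CT c (2 * n) x) * |lap h x| ≤ 2100 * L + 2 * M) ∧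
      ∀ T : Finset Site, ∑ x ∈ T, |lap (fun x => (1 - CT c (2 * n) x) * h x) x| ≤
        6380 * L + 2 * M := by
  simp only [lap_AL] at hsub hneg ⊢
  exact cutoff hn hL0 h0 (fun x hx => by rw [← lap_AL]; exact AL.supp_lap h0 x hx) hL hsub hneg

/-- Masses of the cut-off `H`-function. -/
theorem scut : SCut := by
  classical
  intro P τ θ A B C E Hs Hf Q R G c n L h hH _ hE hn hL0 hQ hRG hG hin hLs hLf T
  obtain ⟨M, hM⟩ : ∃ M : ℕ, Vx P ∪ P ⊆ box M := (H436.subset_box (Vx P ∪ P)).exists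
  have s0 : ∀ x ∉ box M, Hs x = 0 := fun x hx =>
    hH.h.out x fun h' => hx (hM (mem_union_left _ h'))
  have s1 : ∀ x ∉ box (M + 1), Hs x = 0 := fun x hx =>
    s0 x fun h' => hx (H436.box_mono (by lia) h')
  have s2 : ∀ x ∉ box (M + 1), Hf x = 0 := fun x hx =>
    hH.zero x fun h' => hx (H436.box_mono (by lia) (hM (mem_union_right _ h')))
  have s3 : ∀ x ∉ box (M + 1), hat P Hs x = 0 := by
    rintro ⟨i, j⟩ hx
    have k : ∀ a b : ℤ, |a - i| + |b - j| ≤ 1 → Hs (a, b) = 0 := fun a b hab => s0 _ fun h' => by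
      apply hx
      rw [H436.mem_box] at h' ⊢
      simp only [abs_le] at h' ⊢
      push_cast
      have := abs_nonneg (a - i)
      have := abs_nonneg (b - j)
      have := le_abs_self (a - i)
      have := le_abs_self (b - j)
      have := neg_abs_le (a - i)
      have := neg_abs_le (b - j)
      lia
    unfold hat
    simp only
    rw [k i j (by simp), k (i + 1) j (by simp), k (i - 1) j (by simp), k i (j + 1) (by simp),
      k i (j - 1) (by simp)]
    ring
  have m2 : ∀ x ∈ bx c (8 * n), x ∈ P ∧ ((x.1 - 1, x.2 - 1) : Site) ∈ P := fun x hx =>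
    ⟨hin x (bx_mono (by lia) hx), hin _ (by
      rw [mem_bx] at hx ⊢
      push_cast at hx ⊢
      lia)⟩
  have hθ : ∀ x : Site, x ∉ bx c n → θ (x.1 - 1, x.2) = θ (x.1 - 1, x.2 - 1) := fun x hx =>
    hE.θc x.1 x.2 fun h' => hx (hQ h')
  set w : Site → ℝ := fun x => hat P Hs x - Hs x with hw
  have w0 : ∀ x, 0 ≤ w x := fun x => sub_nonneg.2 (le_hat hH x)
  have w1 : ∀ x ∉ bx c n, w x ≤ lap (hat P Hs) x := fun x hx => lap_hat h hH (hθ x hx)
  have w2 : ∀ x ∈ bx c (8 * n), w x = 0 := fun x hx =>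
    sub_eq_zero.2 (hat_in Hs (m2 x hx).1 (m2 x hx).2)
  have w3 : ∀ x ∉ box (M + 1 + 1), w x = 0 := fun x hx => by
    have : x ∉ box (M + 1) := fun h' => hx (H436.box_mono (by lia) h')
    simp only [hw]
    rw [s3 x this, s1 x this, sub_zero]
  have ct0 : ∀ x ∉ bx c (4 * n - 1), CT c (2 * n) x = 0 := fun x hx =>
    CT_zero (by lia) fun h' => hx (bx_mono (by lia) h')
  have k1 := (cutoff' (c := c) hn (h := hat P Hs) (M := 0) hL0 s3
    (fun x hx hx' => by rw [hat_in Hs (m2 x hx).1 (m2 x hx).2]; exact hLs x hx hx')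
    (fun x _ hx => (w0 x).trans (w1 x hx)) (le_of_eq (sum_eq_zero fun x hx =>
      max_eq_left (by linarith [w0 x, w1 x (mem_filter.1 hx).2])))).1
  have k2 : ∑ x ∈ box (M + 1 + 1), w x ≤ 2100 * L := by
    refine le_trans (sum_le_sum fun x _ => ?_) (k1.trans (by linarith))
    by_cases hx : x ∈ bx c (8 * n)
    · rw [w2 x hx]
      exact mul_nonneg (by linarith [CT_le_one c (2 * n) x]) (abs_nonneg _)
    · rw [ct0 x fun h' => hx (bx_mono (by lia) h'), sub_zero, one_mul]
      exact (w1 x fun h' => hx (bx_mono (by lia) h')).trans (le_abs_self _)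
  have k3 := cutoff' (c := c) hn (h := Hs) (M := 8400 * L) hL0 s1 hLs (fun x hx hx' => by
      have e := lapS_int h hH (m2 x hx).1 (m2 x hx).2
      rw [← hθ x hx'] at e
      rw [e]
      exact quad_nonneg _ _ _ _ _ (h.θ2 _)) (by
      have a1 : ∀ x ∈ (box (M + 1 + 1)).filter (fun x => x ∉ bx c n), max 0 (-lap Hs x) ≤
          w (x.1 + 1, x.2) + w (x.1 - 1, x.2) + w (x.1, x.2 + 1) + w (x.1, x.2 - 1) := by
        intro x hx
        have b1 := w1 x (mem_filter.1 hx).2
        have b2 := w0 x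
        have b3 := w0 (x.1 + 1, x.2)
        have b4 := w0 (x.1 - 1, x.2)
        have b5 := w0 (x.1, x.2 + 1)
        have b6 := w0 (x.1, x.2 - 1)
        refine max_le (by linarith) ?_
        simp only [hw] at b1 b2 ⊢
        unfold lap at b1 ⊢
        linarith
      refine (sum_le_sum a1).trans ?_
      rw [sum_add_distrib, sum_add_distrib, sum_add_distrib]
      have c1 := shift_le w0 w3 ((box (M + 1 + 1)).filter fun x => x ∉ bx c n)
        (g := fun x => (x.1 + 1, x.2)) fun x y hxy => by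
          simp only [Prod.mk.injEq] at hxy; exact Prod.ext (by lia) hxy.2
      have c2 := shift_le w0 w3 ((box (M + 1 + 1)).filter fun x => x ∉ bx c n)
        (g := fun x => (x.1 - 1, x.2)) fun x y hxy => by
          simp only [Prod.mk.injEq] at hxy; exact Prod.ext (by lia) hxy.2
      have c3 := shift_le w0 w3 ((box (M + 1 + 1)).filter fun x => x ∉ bx c n)
        (g := fun x => (x.1, x.2 + 1)) fun x y hxy => by
          simp only [Prod.mk.injEq] at hxy; exact Prod.ext hxy.1 (by lia)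
      have c4 := shift_le w0 w3 ((box (M + 1 + 1)).filter fun x => x ∉ bx c n)
        (g := fun x => (x.1, x.2 - 1)) fun x y hxy => by
          simp only [Prod.mk.injEq] at hxy; exact Prod.ext hxy.1 (by lia)
      linarith)
  have nR : ∀ x, x ∉ bx c n → x ∉ G → x ∉ R := fun x hx hxG hR =>
    hx (hRG (mem_sdiff.2 ⟨hR, hxG⟩))
  have f1 : ∀ x, x ∉ bx c n → x ∈ bx c (8 * n) → lap Hf x ≤ 0 := fun x hx hx' =>
    lapf_nonpos h hH (m2 x hx').1 (hE.τc x.1 x.2 (nR x hx fun h' => hG x h' hx'))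
  set u : Site → ℝ := fun v => 3 * ((1 - CT c (2 * n) v) * |lap Hs v|) + 13 * w v with hu
  have u1 : ∀ v, 0 ≤ (1 - CT c (2 * n) v) * |lap Hs v| := fun v =>
    mul_nonneg (by linarith [CT_le_one c (2 * n) v]) (abs_nonneg _)
  have u0 : ∀ v, 0 ≤ u v := fun v => by
    simp only [hu]
    linarith [u1 v, w0 v]
  have g1 : ∀ x ∈ (box (M + 1 + 1)).filter (fun x => x ∉ bx c n),
      max 0 (lap Hf x) ≤ ∑ v ∈ cnr x, u v := by
    intro x hx
    have hx1 := (mem_filter.1 hx).2
    have n0 : 0 ≤ ∑ v ∈ cnr x, u v := sum_nonneg fun v _ => u0 v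
    refine max_le n0 ?_
    by_cases hxG : x ∈ G
    · refine (lapf_G h hH hE hxG).trans ?_
      rw [mul_sum]
      refine sum_le_sum fun v hv => ?_
      have : v ∉ bx c (4 * n - 1) := by
        intro hv'
        apply hG x hxG
        have hv2 := bx_mono (show 4 * n - 1 ≤ 4 * n by lia) hv'
        rw [AL.mem_cnr'] at hv
        rw [mem_bx] at hv2 ⊢
        push_cast at hv2 ⊢
        rcases hv with rfl | rfl | rfl | rfl <;> lia
      simp only [hu]
      rw [ct0 v this, sub_zero, one_mul]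
      linarith [w0 v]
    · have hτ := hE.τc x.1 x.2 (nR x hx1 hxG)
      by_cases hP : x ∈ P
      · exact (lapf_nonpos h hH hP hτ).trans n0
      · refine (lapf_out h hH hP hτ).trans ?_
        rw [mul_sum]
        refine sum_le_sum fun v _ => ?_
        simp only [hu, hw]
        linarith [u1 v]
  have g2 := AL.sum_sum_cnr u0 (T := (box (M + 1 + 1)).filter fun x => x ∉ bx c n)
    (S := box (M + 1 + 1)) fun v hv => by
      simp only [hu]
      rw [AL.supp_lap s1 v hv, w3 v hv, abs_zero, mul_zero, mul_zero, mul_zero, add_zero]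
  have g3 : ∑ v ∈ box (M + 1 + 1), u v ≤ 84000 * L := by
    simp only [hu]
    rw [sum_add_distrib, ← mul_sum, ← mul_sum]
    linarith [k3.1]
  have neg : ∀ x, lap (fun y => -Hf y) x = -lap Hf x := fun x => by unfold lap; ring
  have k4 := (cutoff' (c := c) hn (h := fun y => -Hf y) (M := 336000 * L) hL0 (K := M + 1)
    (fun x hx => by simp only [s2 x hx, neg_zero])
    (fun x hx hx' => by rw [abs_neg]; exact hLf x hx hx')
    (fun x hx hx' => by rw [neg]; linarith [f1 x hx' hx]) (by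
      simp only [neg, neg_neg]
      linarith [sum_le_sum g1])).2 T
  have e : ∀ x, |lap (fun x => (1 - CT c (2 * n) x) * -Hf x) x| =
      |lap (fun x => (1 - CT c (2 * n) x) * Hf x) x| := fun x => by
    rw [← abs_neg]; congr 1; unfold lap; ring
  rw [sum_congr rfl fun x _ => e x] at k4
  linarith [k3.2 T]

end Vale.Agent.P144S.M
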