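import Vale.Agent.P144S.Defs

/-!
The local `ℓ²` bound on the graph of the cells.
-/

set_option linter.all false

namespace Vale.Agent.P144S.M

open Finset Vale.Agent.P144
open Vale.Agent.P144.H170 (Pt bx D lap mem_bx bx_mono sq_two)
open Vale.Agent.P144.H135 (bx_step' bx_step'')

theorem sqV {P : Finset Site} {τ θ A B C D' Hs Hf : Site → ℝ} (h : Spr P τ θ A B C D')
    (hH : IsH P A B C D' Hs Hf) (i j : ℤ) (hh : ((i, j) : Site) ∈ P ∨ ((i, j + 1) : Site) ∈ P) :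
    A (i, j + 1) ^ 2 + B (i, j + 1) ^ 2 ≤
      3 * (|Hf (i, j + 1) - Hf (i, j)| + |Hs (i + 1, j + 1) - Hs (i, j + 1)|) ∧
    C (i, j) ^ 2 + D' (i, j) ^ 2 ≤
      3 * (|Hf (i, j + 1) - Hf (i, j)| + |Hs (i + 1, j + 1) - Hs (i, j + 1)|) := by
  have ha := hH.h.a i (j + 1)
  have hb := hH.h.b i (j + 1)
  have hc := hH.h.c i j
  have hd := hH.h.d i j
  obtain ⟨h1, h2⟩ := h.V i j hh
  have ht := h.τ2 (i, j)
  set t := τ (i, j) with htt
  have s2 : √2 * √2 = 2 := Real.mul_self_sqrt (by norm_num)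
  constructor
  · have e1 : Hf (i, j + 1) - Hf (i, j) = A (i, j + 1) ^ 2 + B (i, j + 1) ^ 2 -
        2 * √2 * (t * (A (i, j + 1) * B (i, j + 1))) := by
      rw [h1] at hc
      linear_combination hc - ha + (A (i, j + 1)) ^ 2 * s2 + B (i, j + 1) ^ 2 * ht
    have e2 : Hs (i + 1, j + 1) - Hs (i, j + 1) = -(A (i, j + 1) ^ 2 - B (i, j + 1) ^ 2) := by
      linear_combination hb - ha
    rw [e1, e2, abs_neg]
    exact sq_two ht
  · have e3 : A (i, j + 1) = √2 * C (i, j) + t * D' (i, j) := by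
      rw [h1, h2]; linear_combination (-A (i, j + 1)) * s2 + A (i, j + 1) * ht
    have e1 : Hf (i, j + 1) - Hf (i, j) = -(C (i, j) ^ 2 + D' (i, j) ^ 2 -
        2 * √2 * (-t * (C (i, j) * D' (i, j)))) := by
      rw [e3] at ha
      linear_combination hc - ha - (C (i, j)) ^ 2 * s2 - D' (i, j) ^ 2 * ht
    have e2 : Hs (i + 1, j + 1) - Hs (i, j + 1) = -(C (i, j) ^ 2 - D' (i, j) ^ 2) := by
      linear_combination hd - hc
    rw [e1, e2, abs_neg, abs_neg]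
    exact sq_two (by rw [neg_mul_neg]; exact ht)

theorem ssq : SSq := by
  intro P τ θ A B C E Hs Hf c m U W M h hH hU0 hW0 hU hW hM1 hM2 c' r T hT
  simp only [H170.lap_AL] at hM1 hM2
  have DU : ∀ e : Pt, (e = (1, 0) ∨ e = (0, 1)) → ∀ x, x ∉ bx c (m + 1) →
      D e Hs x = D e U x ∧ D e Hf x = D e W x := by
    intro e he x hx
    have h1 : x ∉ bx c m := fun h' => hx (bx_mono (by lia) h')
    have h2 : x + e ∉ bx c m := fun h' => hx (bx_step' he h')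
    unfold D
    rw [hU _ h1, hU _ h2, hW _ h1, hW _ h2]
    exact ⟨rfl, rfl⟩
  have hs : ∀ x ∈ T, x ∉ bx c (m + 1) ∧ x - (0, 1) ∉ bx c (m + 1) ∧ x + (0, 1) ∉ bx c (m + 1) := by
    intro x hx
    have h1 := (hT x hx).2.1
    exact ⟨fun h' => h1 (bx_mono (by lia) h'), fun h' => h1 (bx_step'' (Or.inr rfl) h'),
      fun h' => h1 (bx_step' (Or.inr rfl) h')⟩
  have k1 : ∀ x ∈ T, A x ^ 2 + B x ^ 2 ≤ 3 * (|D (0, 1) W (x - (0, 1))| + |D (1, 0) U x|) := by
    rintro ⟨i, j⟩ hx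
    obtain ⟨a1, a2, a3⟩ := hs _ hx
    rw [← (DU (0, 1) (Or.inr rfl) _ a2).2, ← (DU (1, 0) (Or.inl rfl) _ a1).1]
    have := (sqV h hH i (j - 1) (Or.inr (by simpa using (hT _ hx).2.2))).1
    rw [sub_add_cancel] at this
    unfold D
    simpa using this
  have k2 : ∀ x ∈ T, C x ^ 2 + E x ^ 2 ≤ 3 * (|D (0, 1) W x| + |D (1, 0) U (x + (0, 1))|) := by
    rintro ⟨i, j⟩ hx
    obtain ⟨a1, a2, a3⟩ := hs _ hx
    rw [← (DU (0, 1) (Or.inr rfl) _ a1).2, ← (DU (1, 0) (Or.inl rfl) _ a3).1]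
    have := (sqV h hH i j (Or.inl (hT _ hx).2.2)).2
    unfold D
    simpa using this
  have s0 : ∀ F : Site → ℝ, (∀ x, 0 ≤ F x) → ∀ e : Pt, (e = (0, 1) ∨ e = 0 ∨ e = -(0, 1)) →
      ∑ x ∈ T, F (x + e) ≤ ∑ x ∈ bx c' (r + 1), F x := by
    intro F hF e he
    have e1 : ∑ x ∈ T, F (x + e) = ∑ x ∈ T.image (fun x => x + e), F x := by
      rw [sum_image fun x _ y _ hxy => by simpa using hxy]
    rw [e1]
    refine sum_le_sum_of_subset_of_nonneg ?_ fun _ _ _ => hF _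
    intro x hx
    obtain ⟨y, hy, rfl⟩ := mem_image.1 hx
    have := (hT y hy).1
    rw [mem_bx] at this ⊢
    rcases he with rfl | rfl | rfl <;> simp <;> lia
  have aux : ∀ (u : Site → ℝ), (∀ x ∉ Vx P, u x = 0) →
      (∀ T : Finset Site, ∑ w ∈ T, |lap u w| ≤ M) → ∀ e : Site, (e = (1, 0) ∨ e = (0, 1)) →
      ∑ x ∈ bx c' (r + 1), |D e u x| ≤ 96 * ((r:ℝ) + 2) * M := by
    intro u hu hT e he
    obtain ⟨K, hK⟩ : ∃ K : ℕ, Vx P ⊆ box K := (H436.subset_box (Vx P)).exists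
    have hs := AL.supp_lap (u := u) (M := K) fun x hx => hu x fun h => hx (hK h)
    have := H436.grad_sum (u := u) (Λ := Vx P) (S := box (K + 1)) hu
      (fun x hx => by rw [H170.lap_eq, ← H170.lap_AL]; exact hs x hx) c' (r + 1) he
    have h3 : ∑ w ∈ box (K + 1), |H436.lap u w| ≤ M := by
      have := hT (box (K + 1))
      simp only [H170.lap_eq]
      exact this
    calc ∑ x ∈ bx c' (r + 1), |D e u x| ≤ 96 * (((r + 1 : ℕ) : ℝ) + 1) * ∑ w ∈ box (K + 1),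
          |H436.lap u w| := this
      _ ≤ 96 * (((r + 1 : ℕ) : ℝ) + 1) * M := mul_le_mul_of_nonneg_left h3 (by positivity)
      _ = _ := by push_cast; ring
  have h1 := aux U hU0 hM1 (1, 0) (Or.inl rfl)
  have h2 := aux W hW0 hM2 (0, 1) (Or.inr rfl)
  have t1 := s0 (fun x => |D (0, 1) W x|) (fun _ => abs_nonneg _) (-(0, 1)) (by simp)
  have t2 := s0 (fun x => |D (1, 0) U x|) (fun _ => abs_nonneg _) 0 (by simp)
  have t3 := s0 (fun x => |D (0, 1) W x|) (fun _ => abs_nonneg _) 0 (by simp)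
  have t4 := s0 (fun x => |D (1, 0) U x|) (fun _ => abs_nonneg _) (0, 1) (by simp)
  simp only [add_zero] at t2 t3
  calc _ ≤ ∑ x ∈ T, (3 * (|D (0, 1) W (x + -(0, 1))| + |D (1, 0) U x|) +
        3 * (|D (0, 1) W x| + |D (1, 0) U (x + (0, 1))|)) := by
        refine sum_le_sum fun x hx => ?_
        have := k1 x hx
        have := k2 x hx
        rw [← sub_eq_add_neg]
        linarith
    _ = 3 * (∑ x ∈ T, |D (0, 1) W (x + -(0, 1))| + ∑ x ∈ T, |D (1, 0) U x|) +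
        3 * (∑ x ∈ T, |D (0, 1) W x| + ∑ x ∈ T, |D (1, 0) U (x + (0, 1))|) := by
        rw [sum_add_distrib, ← mul_sum, sum_add_distrib, ← mul_sum, sum_add_distrib]
    _ ≤ _ := by linarith

end Vale.Agent.P144S.M
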